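import Vale.Agent.P127.U.Shift
import Vale.Agent.P127.U.Cell

/-!
# P127 / H172 : one generic translation (helper172)

`exists_shift3`: finitely many comparisons, each of them a number of the form
`z + c₀ u₀ + c₁ u₁ + c₂ u₂` with one of the coefficients equal to `1`, read at precision `2 ^ s`.
There is one translation `u` for which the expected number of comparisons that are within `ε` of a
corner is at most `9 ε` times their number.
-/

set_option autoImplicit false

namespace Vale.Agent.P127.H172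

open Finset Vale.Agent.P127 Vale.Agent.P127.Stk Vale.Agent.P127.U.Shift

/-- `z` is within `ε` of an integer -/
def NearInt (ε z : ℝ) : Prop := ∃ k : ℤ, |z - k| ≤ ε

/-- away from the integers the integer part is locally constant -/
lemma floor_eq_of_not_near {ε z z' : ℝ} (h : ¬ NearInt ε z) (hz : |z' - z| ≤ ε) : ⌊z'⌋ = ⌊z⌋ := by
  unfold NearInt at h
  push Not at h
  have h1 := h ⌊z⌋
  have h2 := h (⌊z⌋ + 1)
  have h3 := Int.floor_le z
  have h4 := Int.lt_floor_add_one z
  rw [abs_of_nonneg (by linarith)] at h1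
  rw [abs_of_nonpos (by push_cast; linarith)] at h2
  push_cast at h2
  have h5 := abs_le.1 hz
  rw [Int.floor_eq_iff]
  constructor <;> linarith

lemma card_real_interval (M : ℕ) (hM : 0 < M) (w ε : ℝ) (hε : 0 ≤ ε) (k : ℤ)
    (F : Finset ℕ) (hF : ∀ r ∈ F, |w + (r : ℝ) / M - k| ≤ ε) : (F.card : ℝ) ≤ 2 * ε * M + 1 := by
  rcases F.eq_empty_or_nonempty with h0 | h0
  · rw [h0]
    simp only [Finset.card_empty, Nat.cast_zero]
    positivity
  · have hM' : (0 : ℝ) < M := by exact_mod_cast hM
    set a := F.min' h0 with ha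
    set b := F.max' h0 with hb
    have h1 : F ⊆ Finset.Icc a b := fun r hr =>
      Finset.mem_Icc.2 ⟨F.min'_le r hr, F.le_max' r hr⟩
    have h2 := Finset.card_le_card h1
    rw [Nat.card_Icc] at h2
    have hab : a ≤ b := F.min'_le _ (F.max'_mem h0)
    have h3 : (F.card : ℝ) ≤ (b : ℝ) - a + 1 := by
      have : F.card + a ≤ b + 1 := by omega
      have : ((F.card + a : ℕ) : ℝ) ≤ ((b + 1 : ℕ) : ℝ) := by exact_mod_cast this
      push_cast at this
      linarith
    have h4 := abs_le.1 (hF a (F.min'_mem h0))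
    have h5 := abs_le.1 (hF b (F.max'_mem h0))
    have h6 : (b : ℝ) / M - a / M ≤ 2 * ε := by linarith
    rw [← sub_div, div_le_iff₀ hM'] at h6
    linarith

open Classical in
/-- one comparison, all the translations `k / 2 ^ S` -/
theorem card_near_le (S s : ℕ) (hs : s ≤ S) (z ε : ℝ) (hε : 0 ≤ ε) (hε1 : ε ≤ 1 / 2) :
    (((range (2 ^ S)).filter fun k : ℕ => NearInt ε (2 ^ s * (z + (k : ℝ) / 2 ^ S))).card : ℝ) ≤
      2 ^ s * (3 * (2 * ε * 2 ^ (S - s) + 1)) := by
  set M : ℕ := 2 ^ (S - s) with hM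
  have hM0 : 0 < M := by positivity
  have hMr : (0 : ℝ) < M := by exact_mod_cast hM0
  have hS : 2 ^ S = 2 ^ s * M := by rw [hM, ← pow_add]; congr 1; omega
  have hSr : (2 : ℝ) ^ S = 2 ^ s * M := by exact_mod_cast hS
  set w : ℝ := 2 ^ s * z with hw
  set G : Finset ℕ := (range M).filter fun r : ℕ => NearInt ε (w + (r : ℝ) / M) with hG
  -- the fibre count
  have h1 : ((range (2 ^ S)).filter fun k : ℕ => NearInt ε (2 ^ s * (z + (k : ℝ) / 2 ^ S))).card ≤
      2 ^ s * G.card := by
    have hmap : ((range (2 ^ S)).filter fun k : ℕ => NearInt ε (2 ^ s * (z + (k : ℝ) / 2 ^ S))) ⊆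
        ((range (2 ^ s)) ×ˢ G).image fun p => p.1 * M + p.2 := by
      intro k hk
      rw [mem_filter, mem_range] at hk
      obtain ⟨hk1, j, hj⟩ := hk
      rw [mem_image]
      refine ⟨(k / M, k % M), ?_, ?_⟩
      · rw [mem_product, mem_range, hG, mem_filter, mem_range]
        refine ⟨?_, Nat.mod_lt _ hM0, ⟨j - (k / M : ℕ), ?_⟩⟩
        · rw [Nat.div_lt_iff_lt_mul hM0, ← hS]
          exact hk1
        · have hk2 : (k : ℝ) = M * ((k / M : ℕ) : ℝ) + ((k % M : ℕ) : ℝ) := by
            exact_mod_cast (Nat.div_add_mod k M).symm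
          have e1 : (2 : ℝ) ^ s * (z + (k : ℝ) / 2 ^ S) =
              w + ((k / M : ℕ) : ℝ) + ((k % M : ℕ) : ℝ) / M := by
            rw [hSr, hw, hk2]
            field_simp
            ring
          rw [e1] at hj
          have e2 : w + (((k % M : ℕ) : ℝ)) / M - ((j - ((k / M : ℕ) : ℤ) : ℤ) : ℝ) =
              w + ((k / M : ℕ) : ℝ) + ((k % M : ℕ) : ℝ) / M - j := by
            rw [Int.cast_sub, Int.cast_natCast]
            ring
          have e3 := hj
          rw [← e2] at e3
          exact e3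
      · exact Nat.div_add_mod' k M
    refine (card_le_card hmap).trans (card_image_le.trans ?_)
    rw [card_product, card_range]
  -- at most three integers
  have h2 : (G.card : ℝ) ≤ 3 * (2 * ε * M + 1) := by
    have hcov : G ⊆ (Finset.range 3).biUnion fun i =>
        (range M).filter fun r : ℕ => |w + (r : ℝ) / M - ((⌊w⌋ + (i : ℤ) : ℤ) : ℝ)| ≤ ε := by
      intro r hr
      rw [hG, mem_filter, mem_range] at hr
      obtain ⟨hr1, j, hj⟩ := hr
      have hr2 : (r : ℝ) / M < 1 := by
        rw [div_lt_one hMr]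
        exact_mod_cast hr1
      have hr3 : 0 ≤ (r : ℝ) / M := by positivity
      have h3 := abs_le.1 hj
      have h4 := Int.floor_le w
      have h5 := Int.lt_floor_add_one w
      have l1 : ⌊w⌋ ≤ j := by
        have : (⌊w⌋ : ℝ) < j + 1 := by linarith
        have : ⌊w⌋ < j + 1 := by exact_mod_cast this
        omega
      have l2 : j ≤ ⌊w⌋ + 2 := by
        have : (j : ℝ) < ⌊w⌋ + 3 := by linarith
        have : j < ⌊w⌋ + 3 := by exact_mod_cast this
        omega
      rw [mem_biUnion]
      refine ⟨(j - ⌊w⌋).toNat, ?_, ?_⟩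
      · rw [mem_range]
        omega
      · rw [mem_filter, mem_range]
        refine ⟨hr1, ?_⟩
        have : (⌊w⌋ + (((j - ⌊w⌋).toNat : ℕ) : ℤ) : ℤ) = j := by omega
        rw [this]
        exact hj
    have h3 : (G.card : ℝ) ≤ ∑ i ∈ Finset.range 3, (2 * ε * M + 1) := by
      have h4 := (card_le_card hcov).trans card_biUnion_le
      have h5 : (G.card : ℝ) ≤ ∑ i ∈ Finset.range 3,
          (((range M).filter fun r : ℕ => |w + (r : ℝ) / M - ((⌊w⌋ + (i : ℤ) : ℤ) : ℝ)| ≤ ε).card :
            ℝ) := by exact_mod_cast h4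
      refine h5.trans (Finset.sum_le_sum fun i _ => ?_)
      exact card_real_interval M hM0 w ε hε _ _ fun r hr => (mem_filter.1 hr).2
    rw [Finset.sum_const, card_range, nsmul_eq_mul] at h3
    exact_mod_cast h3
  have hMr' : (M : ℝ) = 2 ^ (S - s) := by rw [hM]; push_cast; rfl
  have h1' : ((((range (2 ^ S)).filter fun k : ℕ =>
      NearInt ε (2 ^ s * (z + (k : ℝ) / 2 ^ S))).card : ℕ) : ℝ) ≤ 2 ^ s * G.card := by
    exact_mod_cast h1
  refine h1'.trans (mul_le_mul_of_nonneg_left ?_ (by positivity))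
  rw [← hMr']
  exact h2

/-- **one generic translation** -/
theorem exists_shift3 {Ω : Type} [Fintype Ω] (P : Law Ω) {ι : Type*} (I : Finset ι)
    (s : ι → Ω → ℕ) (z : ι → Ω → ℝ) (c : ι → Ω → Fin 3 → ℝ) (j : ι → Fin 3)
    (hc : ∀ i ω, c i ω (j i) = 1) {ε : ℝ} (hε : 0 < ε) (hε1 : ε ≤ 1 / 2) :
    ∃ u : Fin 3 → ℝ, (∀ k, 0 ≤ u k ∧ u k < 1) ∧
      P.ex (fun ω => ∑ i ∈ I, Law.ind (NearInt ε (2 ^ s i ω * (z i ω + ∑ k, c i ω k * u k)))) ≤
        9 * ε * I.card := by
  classical
  -- a common fine precision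
  obtain ⟨S₀, hS₀⟩ : ∃ S₀ : ℕ, ∀ i ∈ I, ∀ ω, s i ω ≤ S₀ := by
    refine ⟨∑ i ∈ I, ∑ ω, s i ω, fun i hi ω => ?_⟩
    calc s i ω ≤ ∑ ω, s i ω := Finset.single_le_sum (fun _ _ => Nat.zero_le _) (mem_univ ω)
      _ ≤ _ := Finset.single_le_sum (f := fun i => ∑ ω, s i ω) (fun _ _ => Nat.zero_le _) hi
  obtain ⟨q, hq⟩ := exists_nat_gt (1 / ε)
  have hq1 : (1 : ℝ) / 2 ^ q ≤ ε := by
    have h1 : (q : ℝ) < 2 ^ q := by exact_mod_cast Nat.lt_two_pow_self
    have h2 : 1 / ε < 2 ^ q := hq.trans h1
    rw [div_le_iff₀ (by positivity)]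
    rw [div_lt_iff₀ hε] at h2
    linarith [mul_comm ((2 : ℝ) ^ q) ε]
  set S := S₀ + q with hS
  set N : ℕ := 2 ^ S with hN
  have hN0 : (0 : ℝ) < N := by rw [hN]; positivity
  have hNr : (N : ℝ) = 2 ^ S := by rw [hN]; push_cast; rfl
  -- the finite set of translations
  set K : Finset (Fin 3 → ℕ) := Fintype.piFinset fun _ => range N with hK
  set U : (Fin 3 → ℕ) → Fin 3 → ℝ := fun k a => (k a : ℝ) / N with hU
  have hKcard : (K.card : ℝ) = (N : ℝ) ^ 3 := by
    rw [hK, Fintype.card_piFinset]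
    simp
  -- one comparison, averaged
  have key : ∀ i ∈ I, ∀ ω, ∑ k ∈ K,
      Law.ind (NearInt ε (2 ^ s i ω * (z i ω + ∑ a, c i ω a * U k a))) ≤
        9 * ε * (N : ℝ) ^ 3 := by
    intro i hi ω
    set a₀ := j i with ha₀
    -- fibre over the other coordinates
    set L : Finset (Fin 3 → ℕ) := Fintype.piFinset fun a => if a = a₀ then {0} else range N with hL
    have hLcard : (L.card : ℝ) = (N : ℝ) ^ 2 := by
      rw [hL, Fintype.card_piFinset]
      have : ∀ a : Fin 3, (if a = a₀ then ({0} : Finset ℕ) else range N).card =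
          if a = a₀ then 1 else N := fun a => by split_ifs <;> simp
      simp only [this]
      have h3 : ∏ a : Fin 3, (if a = a₀ then 1 else N) = N ^ 2 := by
        rw [Finset.prod_ite]
        simp only [Finset.prod_const_one, one_mul, Finset.prod_const]
        congr 1
        rw [Finset.filter_ne' , Finset.card_erase_of_mem (mem_univ _)]
        simp
      rw [h3]
      push_cast
      ring
    have hsplit : ∑ k ∈ K, Law.ind (NearInt ε (2 ^ s i ω * (z i ω + ∑ a, c i ω a * U k a))) =
        ∑ k' ∈ L, ∑ r ∈ range N, Law.ind (NearInt ε (2 ^ s i ω * (z i ω +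
          ∑ a, c i ω a * U (Function.update k' a₀ r) a))) := by
      rw [← Finset.sum_product']
      refine Finset.sum_bij' (fun k _ => (Function.update k a₀ 0, k a₀))
        (fun p _ => Function.update p.1 a₀ p.2) ?_ ?_ ?_ ?_ ?_
      · intro k hk
        rw [hK, Fintype.mem_piFinset] at hk
        rw [mem_product, hL, Fintype.mem_piFinset]
        refine ⟨fun a => ?_, hk a₀⟩
        by_cases ha : a = a₀
        · subst ha; simp
        · show Function.update k a₀ 0 a ∈ _
          rw [Function.update_of_ne ha, if_neg ha]; exact hk a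
      · rintro ⟨k', r⟩ hp
        rw [mem_product, hL, Fintype.mem_piFinset] at hp
        rw [hK, Fintype.mem_piFinset]
        intro a
        by_cases ha : a = a₀
        · subst ha; simpa using hp.2
        · show Function.update k' a₀ r a ∈ _
          rw [Function.update_of_ne ha]
          have := hp.1 a
          rwa [if_neg ha] at this
      · intro k _
        simp
      · rintro ⟨k', r⟩ hp
        rw [mem_product, hL, Fintype.mem_piFinset] at hp
        have h0 : k' a₀ = 0 := by simpa using hp.1 a₀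
        simp only [Function.update_idem, Function.update_self, Prod.mk.injEq, and_true]
        rw [← h0, Function.update_eq_self]
      · intro k _
        simp
    rw [hsplit]
    have hone : ∀ k' ∈ L, ∑ r ∈ range N, Law.ind (NearInt ε (2 ^ s i ω * (z i ω +
          ∑ a, c i ω a * U (Function.update k' a₀ r) a))) ≤ 9 * ε * N := by
      intro k' _
      set z' : ℝ := z i ω + ∑ a ∈ univ.erase a₀, c i ω a * U k' a with hz'
      have hval : ∀ r, z i ω + ∑ a, c i ω a * U (Function.update k' a₀ r) a =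
          z' + (r : ℝ) / 2 ^ S := by
        intro r
        rw [← Finset.add_sum_erase _ _ (mem_univ a₀), hc]
        have e1 : U (Function.update k' a₀ r) a₀ = (r : ℝ) / 2 ^ S := by
          rw [hU]
          simp only [Function.update_self, hNr]
        have e2 : ∑ a ∈ univ.erase a₀, c i ω a * U (Function.update k' a₀ r) a =
            ∑ a ∈ univ.erase a₀, c i ω a * U k' a := Finset.sum_congr rfl fun a ha => by
          rw [hU]
          simp only
          rw [Function.update_of_ne (Finset.ne_of_mem_erase ha)]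
        rw [e1, e2, hz']
        ring
      have hsum : ∑ r ∈ range N, Law.ind (NearInt ε (2 ^ s i ω * (z i ω +
          ∑ a, c i ω a * U (Function.update k' a₀ r) a))) =
          (((range (2 ^ S)).filter fun k : ℕ =>
            NearInt ε (2 ^ s i ω * (z' + (k : ℝ) / 2 ^ S))).card : ℝ) := by
        rw [Finset.card_eq_sum_ones, Finset.sum_filter]
        push_cast
        refine Finset.sum_congr (by rw [hN]) fun r _ => ?_
        rw [hval r]
        unfold Law.ind
        rfl
      rw [hsum]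
      have hsS : s i ω ≤ S := (hS₀ i hi ω).trans (Nat.le_add_right _ _)
      refine (card_near_le S (s i ω) hsS z' ε hε.le hε1).trans ?_
      have e1 : (2 : ℝ) ^ s i ω * 2 ^ (S - s i ω) = N := by
        rw [hNr, ← pow_add]
        congr 1
        omega
      have e2 : (2 : ℝ) ^ s i ω ≤ ε * N := by
        have h1 : (2 : ℝ) ^ s i ω ≤ 2 ^ S₀ := pow_le_pow_right₀ (by norm_num) (hS₀ i hi ω)
        have h2 : (2 : ℝ) ^ S₀ = N * (1 / 2 ^ q) := by
          rw [hNr, hS, pow_add]
          field_simp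
        rw [h2] at h1
        have h3 := mul_le_mul_of_nonneg_left hq1 hN0.le
        linarith [mul_comm (N : ℝ) ε]
      calc (2 : ℝ) ^ s i ω * (3 * (2 * ε * 2 ^ (S - s i ω) + 1)) =
            6 * ε * (2 ^ s i ω * 2 ^ (S - s i ω)) + 3 * 2 ^ s i ω := by ring
        _ ≤ 6 * ε * N + 3 * (ε * N) := by
            rw [e1]
            linarith
        _ = 9 * ε * N := by ring
    calc ∑ k' ∈ L, ∑ r ∈ range N, Law.ind (NearInt ε (2 ^ s i ω * (z i ω +
          ∑ a, c i ω a * U (Function.update k' a₀ r) a))) ≤ ∑ k' ∈ L, 9 * ε * N :=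
          Finset.sum_le_sum hone
      _ = 9 * ε * (N : ℝ) ^ 3 := by
          rw [Finset.sum_const, nsmul_eq_mul, hLcard]
          ring
  -- the total average
  have htot : ∑ k ∈ K, P.ex (fun ω => ∑ i ∈ I,
      Law.ind (NearInt ε (2 ^ s i ω * (z i ω + ∑ a, c i ω a * U k a)))) ≤
        (N : ℝ) ^ 3 * (9 * ε * I.card) := by
    unfold Law.ex
    rw [Finset.sum_comm]
    calc ∑ ω, ∑ k ∈ K, P.w ω * ∑ i ∈ I,
          Law.ind (NearInt ε (2 ^ s i ω * (z i ω + ∑ a, c i ω a * U k a))) =
          ∑ ω, P.w ω * ∑ i ∈ I, ∑ k ∈ K,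
          Law.ind (NearInt ε (2 ^ s i ω * (z i ω + ∑ a, c i ω a * U k a))) := by
          refine Finset.sum_congr rfl fun ω _ => ?_
          rw [← Finset.mul_sum, Finset.sum_comm]
      _ ≤ ∑ ω, P.w ω * ∑ i ∈ I, 9 * ε * (N : ℝ) ^ 3 :=
          Finset.sum_le_sum fun ω _ => mul_le_mul_of_nonneg_left
            (Finset.sum_le_sum fun i hi => key i hi ω) (P.nn ω)
      _ = (N : ℝ) ^ 3 * (9 * ε * I.card) := by
          rw [← Finset.sum_mul, P.sum_one, Finset.sum_const, nsmul_eq_mul]
          ring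
  have hKne : K.Nonempty := by
    rw [hK, Fintype.piFinset_nonempty]
    intro _
    rw [Finset.nonempty_range_iff, hN]
    positivity
  obtain ⟨k, hk, hk2⟩ : ∃ k ∈ K, P.ex (fun ω => ∑ i ∈ I,
      Law.ind (NearInt ε (2 ^ s i ω * (z i ω + ∑ a, c i ω a * U k a)))) ≤ 9 * ε * I.card := by
    by_contra hcon
    push Not at hcon
    have h1 := Finset.sum_lt_sum_of_nonempty hKne hcon
    rw [Finset.sum_const, nsmul_eq_mul, hKcard] at h1
    linarith
  refine ⟨U k, fun a => ?_, hk2⟩
  rw [hK, Fintype.mem_piFinset] at hk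
  have h1 := mem_range.1 (hk a)
  constructor
  · rw [hU]; positivity
  · rw [hU]
    simp only
    rw [div_lt_one hN0]
    exact_mod_cast h1

end Vale.Agent.P127.H172
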